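import Vale.Agent.P054.MathlibUsed
import Vale.Agent.P054.Bdl.B2
import Vale.Agent.P054.H438.G.Rob2
import Vale.Agent.P054.H438.G.Pat
import Vale.Agent.P054.H343.G.Refl
attribute [-instance] ProperSMul.toContinuousSMul IsTopologicalTorsor.toContinuousSMul IdemSemiring.toCanonicallyOrderedAdd IdemSemiring.toMulLeftMono IdemSemiring.toMulRightMono AddQuantale.instAddLeftMono AddQuantale.instAddRightMono Quantale.instMulLeftMono Quantale.instMulRightMono FiniteDimensional.rclike_to_real IsScalarTower.complexToReal FiniteDimensional.complexToReal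

set_option linter.all false
set_option autoImplicit false

open Finset

/-! P054, the exponent for all sets: few bad centres, count on flats of codimension two. -/

namespace Vale.Agent.P054G

open Vale.Agent.P054K

/-- at most two mirrors exchange two different flats -/
theorem mirror_fun (d : ℕ) : ∃ L : Submodule ℝ (EuclideanSpace ℝ (Fin d) × ℝ) →
    Submodule ℝ (EuclideanSpace ℝ (Fin d) × ℝ) →
      Finset (Submodule ℝ (EuclideanSpace ℝ (Fin d) × ℝ)),
    (∀ U U', (L U U').card ≤ 2) ∧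
    ∀ U U' (w : EuclideanSpace ℝ (Fin d) × ℝ), w.1 ≠ 0 → U.map (rfL w) = U' → FU U ≠ FU U' →
      (∃ z, z ∈ FU U) → Submodule.span ℝ {w} ∈ L U U' := by
  classical
  have key : ∀ U U' : Submodule ℝ (EuclideanSpace ℝ (Fin d) × ℝ),
      ∃ S : Finset (Submodule ℝ (EuclideanSpace ℝ (Fin d) × ℝ)), S.card ≤ 2 ∧
        ∀ w : EuclideanSpace ℝ (Fin d) × ℝ, w.1 ≠ 0 → U.map (rfL w) = U' → FU U ≠ FU U' →
          (∃ z, z ∈ FU U) → Submodule.span ℝ {w} ∈ S := by
    intro U U'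
    by_cases h : FU U ≠ FU U' ∧ ∃ z, z ∈ FU U
    · obtain ⟨hne, z0, hz0⟩ := h
      obtain ⟨v1, v2, hv⟩ := two_mirrors (FU U) (FU U') hne z0 hz0
      refine ⟨{Submodule.span ℝ {v1}, Submodule.span ℝ {v2}}, card_le_two, ?_⟩
      intro w hw hmap _ _
      rw [mem_insert, mem_singleton]
      rcases hv w hw (fun z => by rw [← hmap]; exact FU_map U w z) with h1 | h1
      · exact Or.inl h1.2
      · exact Or.inr h1.2
    · refine ⟨∅, by simp, ?_⟩
      intro w _ _ h1 h2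
      exact absurd ⟨h1, h2⟩ h
  choose L h1 h2 using key
  exact ⟨L, h1, h2⟩

/-- the dual of a flat -/
def du {d : ℕ} (U : Submodule ℝ (EuclideanSpace ℝ (Fin d) × ℝ)) :
    Submodule ℝ (EuclideanSpace ℝ (Fin d) × ℝ) where
  carrier := {w | ∀ y ∈ U, 2 * inner ℝ y.1 w.1 = y.2 * w.2}
  add_mem' := by
    intro a b ha hb y hy
    rw [Prod.fst_add, Prod.snd_add, inner_add_right, mul_add, mul_add, ha y hy, hb y hy]
  zero_mem' := by
    intro y _
    rw [Prod.fst_zero, Prod.snd_zero, inner_zero_right, mul_zero, mul_zero]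
  smul_mem' := by
    intro c a ha y hy
    rw [Prod.smul_fst, Prod.smul_snd, inner_smul_right, smul_eq_mul]
    have := ha y hy
    linear_combination c * this

theorem mem_du {d : ℕ} (U : Submodule ℝ (EuclideanSpace ℝ (Fin d) × ℝ))
    (w : EuclideanSpace ℝ (Fin d) × ℝ) :
    w ∈ du U ↔ ∀ y ∈ U, 2 * inner ℝ y.1 w.1 = y.2 * w.2 := Iff.rfl

theorem du_le_hyp {d : ℕ} (U : Submodule ℝ (EuclideanSpace ℝ (Fin d) × ℝ))
    (p : EuclideanSpace ℝ (Fin d)) (hp : lf p ∈ U) : du U ≤ hyp p := by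
  intro w hw
  obtain ⟨u, c⟩ := w
  rw [mem_hyp]
  have := (mem_du U _).mp hw _ hp
  unfold lf at this
  simpa using this

open scoped Classical in
theorem card_of_finrank {d : ℕ} (P : Finset (EuclideanSpace ℝ (Fin d))) (g : ℝ)
    (hg : ∀ D : Submodule ℝ (EuclideanSpace ℝ (Fin d) × ℝ), Module.finrank ℝ D = 2 →
      ((P.filter (fun p => D ≤ hyp p)).card : ℝ) ≤ g)
    (D : Submodule ℝ (EuclideanSpace ℝ (Fin d) × ℝ)) (x y : EuclideanSpace ℝ (Fin d) × ℝ)
    (hx : x ∈ D) (hy : y ∈ D) (hx0 : x ≠ 0) (hxy : y ∉ Submodule.span ℝ {x}) :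
    ((P.filter (fun p => D ≤ hyp p)).card : ℝ) ≤ g := by
  refine le_trans ?_ (hg _ (finrank_pair x y hx0 hxy))
  norm_cast
  apply card_le_card
  intro p hp
  rw [mem_filter] at hp ⊢
  refine ⟨hp.1, le_trans ?_ hp.2⟩
  rw [Submodule.span_le]
  rintro z (rfl | hz)
  · exact hx
  · rw [Set.mem_singleton_iff] at hz
    rw [hz]
    exact hy

/-- the reflection is the identity if the flat is in the mirror -/
theorem map_eq_self {d : ℕ} (U : Submodule ℝ (EuclideanSpace ℝ (Fin d) × ℝ))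
    (w : EuclideanSpace ℝ (Fin d) × ℝ) (h : w ∈ du U) : U.map (rfL w) = U := by
  have h1 : ∀ y ∈ U, rfL w y = y := by
    intro y hy
    have h2 := (mem_du U w).mp h y hy
    unfold rfL
    simp only [LinearMap.coe_mk, AddHom.coe_mk]
    rw [real_inner_comm, h2, mul_comm, sub_self, zero_div, zero_smul, sub_zero]
  ext y
  rw [Submodule.mem_map]
  constructor
  · rintro ⟨z, hz, rfl⟩
    rw [h1 z hz]
    exact hz
  · intro hy
    exact ⟨y, hy, h1 y hy⟩

/-- the data of a bad centre -/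
theorem bad_data {d : ℕ} (X : Finset (EuclideanSpace ℝ (Fin d))) (η : ℝ) (hη : 0 < η)
    (hX : 2 ^ (d + 3) * η ^ 3 < X.card) (p : EuclideanSpace ℝ (Fin d)) (hp : Bad X η p) :
    ∃ (r : ℕ) (U : Submodule ℝ (EuclideanSpace ℝ (Fin d) × ℝ))
      (w1 w2 w3 : EuclideanSpace ℝ (Fin d) × ℝ), 2 ≤ r ∧ r ≤ d ∧ w1 ∈ hyp p ∧ w2 ∈ hyp p ∧
      w3 ∈ hyp p ∧ w1 ≠ 0 ∧ w2 ≠ 0 ∧ w3 ≠ 0 ∧
      w2 ∉ Submodule.span ℝ {w1} ∧ w3 ∉ Submodule.span ℝ {w1} ∧ w3 ∉ Submodule.span ℝ {w2} ∧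
      Rob X ((X.card : ℝ) / (2 ^ (d + 4) * η ^ 3)) r U ∧
      Rob X ((X.card : ℝ) / (2 ^ (d + 4) * η ^ 3)) r (U.map (rfL w1)) ∧
      Rob X ((X.card : ℝ) / (2 ^ (d + 4) * η ^ 3)) r (U.map (rfL w3)) ∧
      (U.map (rfL w1)).map (rfL w2) = U.map (rfL w3) ∧
      (U.map (rfL w1) ≠ U ∨ U.map (rfL w3) ≠ U) ∧ (r = d → lf p ∈ U ∧ ∃ m ∈ du U, m ≠ 0) := by
  classical
  have hXpos : (0:ℝ) < X.card := lt_of_le_of_lt (by positivity) hX
  have hXne : X.Nonempty := by
    rw [← card_pos]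
    exact_mod_cast hXpos
  obtain ⟨w1, h1, w2, h2, w3, h3, n1, n2, n3, A, hAX, hAc, hA⟩ := bad_pattern X η p hXne hp
  have hη3 : 0 < η ^ 3 := by positivity
  have hApos : (0:ℝ) < A.card := by
    by_contra hcon
    push Not at hcon
    have : (8:ℝ) * η ^ 3 * A.card ≤ 0 := mul_nonpos_of_nonneg_of_nonpos (by positivity) hcon
    linarith
  have hAne : A.Nonempty := by
    rw [← card_pos]
    exact_mod_cast hApos
  obtain ⟨a0, ha0⟩ := hAne
  have hA0 := hA a0 ha0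
  obtain ⟨-, -, f3, f4, f5, f6⟩ := hA0
  -- the three mirrors are different
  have hs12 : w2 ∉ Submodule.span ℝ {w1} := by
    intro hc
    have e := rf_of_span w2 w1 n2 n1 hc (rf w1 a0)
    rw [rf_rf, f3] at e
    exact f6 e
  have hs13 : w3 ∉ Submodule.span ℝ {w1} := by
    intro hc
    exact f5 (rf_of_span w3 w1 n3 n1 hc a0).symm
  have hs23 : w3 ∉ Submodule.span ℝ {w2} := by
    intro hc
    have e := rf_of_span w3 w2 n3 n2 hc a0
    rw [← f3] at e
    have e2 := congrArg (rf w2) e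
    rw [rf_rf, rf_rf] at e2
    exact f4 e2.symm
  obtain ⟨m, hm, w, hw, hmA⟩ := refl_tri p w1 w2 w3 h1 h2 h3 n1
  have hmA' : ∀ a ∈ A, inner ℝ m (a - p) = 0 ∧ inner ℝ m (rf w a - p) ≠ 0 := by
    intro a ha
    obtain ⟨-, -, g3, g4, g5, g6⟩ := hA a ha
    exact hmA a g4 (by rw [g3]; exact g5) (by rw [g3]; exact g6) g3.symm
  have hAcard : 2 ^ d < A.card := by
    have e1 : (2:ℝ) ^ (d + 3) * η ^ 3 < 8 * η ^ 3 * A.card := lt_of_lt_of_le hX hAc
    have e2 : (2:ℝ) ^ (d + 3) * η ^ 3 = 8 * η ^ 3 * 2 ^ d := by rw [pow_add]; ring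
    rw [e2] at e1
    have e3 := lt_of_mul_lt_mul_left e1 (by positivity)
    exact_mod_cast e3
  obtain ⟨r, U, hr2, hrd, hU0, hRob⟩ := min_flat A (hf m p) (finrank_hf m p hm).le
    (fun a ha => (lf_mem_hf m p a).mpr (hmA' a ha).1) hAcard
  have hθ : (X.card : ℝ) / (2 ^ (d + 4) * η ^ 3) ≤ (A.card : ℝ) / 2 ^ (d + 1) := by
    rw [div_le_div_iff₀ (by positivity) (by positivity)]
    have e2 : (2:ℝ) ^ (d + 4) = 8 * 2 ^ (d + 1) := by
      rw [pow_add, pow_add]; ring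
    rw [e2]
    calc (X.card : ℝ) * 2 ^ (d + 1) ≤ (8 * η ^ 3 * A.card) * 2 ^ (d + 1) :=
          mul_le_mul_of_nonneg_right hAc (by positivity)
      _ = _ := by ring
  have hθ0 : 0 < (X.card : ℝ) / (2 ^ (d + 4) * η ^ 3) := by positivity
  have hRobA : Rob A ((X.card : ℝ) / (2 ^ (d + 4) * η ^ 3)) r U :=
    hRob.mono (Finset.Subset.refl A) hθ0.le hθ
  obtain ⟨a1, ha1, ha1U⟩ := hRobA.nonempty (by omega) hθ0
  have hwne : U.map (rfL w) ≠ U := by
    intro hc
    have e1 : lf (rf w a1) ∈ U := by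
      rw [← hc, ← rfL_lf]
      exact Submodule.mem_map_of_mem ha1U
    exact (hmA' a1 ha1).2 ((lf_mem_hf m p _).mp (hU0 e1))
  refine ⟨r, U, w1, w2, w3, hr2, hrd, h1, h2, h3, n1, n2, n3, hs12, hs13, hs23,
    hRobA.mono hAX hθ0.le le_rfl, rob_map A X _ r U w1 hRobA (fun a ha => (hA a ha).1),
    rob_map A X _ r U w3 hRobA (fun a ha => (hA a ha).2.1),
    map_pattern A _ r U hRobA hθ0 w1 w2 w3 (fun a ha => (hA a ha).2.2.1), ?_, ?_⟩
  · rcases hw with rfl | rfl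
    · exact Or.inl hwne
    · exact Or.inr hwne
  · intro hr
    have hUeq : U = hf m p := by
      apply Submodule.eq_of_le_of_finrank_eq hU0
      rw [finrank_hf m p hm, hRob.1, hr]
    refine ⟨?_, (m, 2 * inner ℝ m p), ?_, ?_⟩
    · rw [hUeq, lf_mem_hf, sub_self, inner_zero_right]
    · rw [mem_du]
      intro y hy
      rw [hUeq, mem_hf] at hy
      simp only
      rw [real_inner_comm, hy]
      ring
    · intro hc
      exact hm (congrArg Prod.fst hc)

end Vale.Agent.P054G
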