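import Vale.Agent.P054.MathlibUsed
import Vale.Agent.P054.R2.H524.Bad
attribute [-instance] ProperSMul.toContinuousSMul IsTopologicalTorsor.toContinuousSMul IdemSemiring.toCanonicallyOrderedAdd IdemSemiring.toMulLeftMono IdemSemiring.toMulRightMono AddQuantale.instAddLeftMono AddQuantale.instAddRightMono Quantale.instMulLeftMono Quantale.instMulRightMono FiniteDimensional.rclike_to_real IsScalarTower.complexToReal FiniteDimensional.complexToReal

set_option linter.all false
set_option autoImplicit false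

open Finset

/-! P054, the exponent for all sets: the number of bad centres. -/

namespace Vale.Agent.P054G

open Vale.Agent.P054K

theorem card_biUnion_le_real {α β : Type} [DecidableEq β] (S : Finset α) (f : α → Finset β) (g : ℝ)
    (h : ∀ a ∈ S, ((f a).card : ℝ) ≤ g) : ((S.biUnion f).card : ℝ) ≤ S.card * g := by
  calc ((S.biUnion f).card : ℝ) ≤ ((∑ a ∈ S, (f a).card : ℕ) : ℝ) := by
        exact_mod_cast card_biUnion_le
    _ = ∑ a ∈ S, ((f a).card : ℝ) := by push_cast; rfl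
    _ ≤ ∑ _a ∈ S, g := sum_le_sum h
    _ = S.card * g := by rw [sum_const, nsmul_eq_mul]

open scoped Classical in
/-- **few bad centres**: count on flats of codimension two -/
theorem bad_count {d : ℕ} (hd : 3 ≤ d) (P X : Finset (EuclideanSpace ℝ (Fin d))) (η g : ℝ)
    (hη : 1 ≤ η) (hX : 2 ^ (d + 3) * η ^ 3 < X.card) (hg0 : 0 ≤ g)
    (hg : ∀ D : Submodule ℝ (EuclideanSpace ℝ (Fin d) × ℝ), Module.finrank ℝ D = 2 →
      ((P.filter (fun p => D ≤ hyp p)).card : ℝ) ≤ g) :
    ((P.filter (fun p => Bad X η p)).card : ℝ) ≤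
      12 * d * (2 ^ (d + 4) * η ^ 3) ^ (3 * (d - 1)) * g := by
  have hη0 : 0 < η := by linarith
  have hη3 : 0 < η ^ 3 := by positivity
  have hXpos : (0:ℝ) < X.card := lt_of_le_of_lt (by positivity) hX
  obtain ⟨L, hL2, hL⟩ := mirror_fun d
  set κ : ℝ := 2 ^ (d + 4) * η ^ 3 with hκ
  have hκ1 : 1 ≤ κ := by
    rw [hκ]
    exact one_le_mul_of_one_le_of_one_le (one_le_pow₀ (by norm_num)) (one_le_pow₀ hη)
  have hκ0 : 0 < κ := by linarith
  set θ : ℝ := (X.card : ℝ) / κ with hθ
  have hθ0 : 0 < θ := by positivity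
  have hXκ : (X.card : ℝ) ≤ κ * θ := by
    rw [hθ, mul_div_cancel₀ _ hκ0.ne']
  have hN : ∀ r, ((robs X θ r).card : ℝ) ≤ κ ^ r := fun r => robs_card_le X θ κ r hθ0 hXκ
  -- candidates, small dimension
  let S3 : Submodule ℝ (EuclideanSpace ℝ (Fin d) × ℝ) × Submodule ℝ (EuclideanSpace ℝ (Fin d) × ℝ) ×
      Submodule ℝ (EuclideanSpace ℝ (Fin d) × ℝ) →
      Finset (Submodule ℝ (EuclideanSpace ℝ (Fin d) × ℝ)) := fun T =>
    (((L T.1 T.2.1 ×ˢ L T.2.1 T.2.2) ∪ (L T.1 T.2.1 ×ˢ L T.1 T.2.2) ∪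
      (L T.2.1 T.2.2 ×ˢ L T.1 T.2.2)).image (fun q => q.1 ⊔ q.2)).filter
      (fun D => ((P.filter (fun p => D ≤ hyp p)).card : ℝ) ≤ g)
  have hS3 : ∀ T, ((S3 T).card : ℝ) ≤ 12 := by
    intro T
    have h1 : (S3 T).card ≤ 12 := by
      calc (S3 T).card ≤ _ := card_filter_le _ _
        _ ≤ _ := card_image_le
        _ ≤ _ := (card_union_le _ _).trans (Nat.add_le_add_right (card_union_le _ _) _)
        _ ≤ 2 * 2 + 2 * 2 + 2 * 2 := by
          rw [card_product, card_product, card_product]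
          exact Nat.add_le_add (Nat.add_le_add (Nat.mul_le_mul (hL2 _ _) (hL2 _ _))
            (Nat.mul_le_mul (hL2 _ _) (hL2 _ _))) (Nat.mul_le_mul (hL2 _ _) (hL2 _ _))
        _ = 12 := by norm_num
    exact_mod_cast h1
  let S2 : Submodule ℝ (EuclideanSpace ℝ (Fin d) × ℝ) × Submodule ℝ (EuclideanSpace ℝ (Fin d) × ℝ) →
      Finset (Submodule ℝ (EuclideanSpace ℝ (Fin d) × ℝ)) := fun T =>
    ((L T.1 T.2).image (fun ℓ => du T.1 ⊔ ℓ)).filter
      (fun D => ((P.filter (fun p => D ≤ hyp p)).card : ℝ) ≤ g)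
  have hS2 : ∀ T, ((S2 T).card : ℝ) ≤ 2 := by
    intro T
    have h1 : (S2 T).card ≤ 2 :=
      ((card_filter_le _ _).trans card_image_le).trans (hL2 _ _)
    exact_mod_cast h1
  -- the covering
  have hcov : P.filter (fun p => Bad X η p) ⊆
      ((Finset.Ico 2 d).biUnion fun r =>
        (robs X θ r ×ˢ robs X θ r ×ˢ robs X θ r).biUnion fun T =>
          (S3 T).biUnion fun D => P.filter (fun p => D ≤ hyp p)) ∪
      (robs X θ d ×ˢ robs X θ d).biUnion fun T =>
          (S2 T).biUnion fun D => P.filter (fun p => D ≤ hyp p) := by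
    intro p hp
    rw [mem_filter] at hp
    obtain ⟨hpP, hbad⟩ := hp
    obtain ⟨r, U, w1, w2, w3, hr2, hrd, h1, h2, h3, n1, n2, n3, hs12, hs13, hs23, R1, R2, R3,
      hmap, hne, hd'⟩ := bad_data X η hη0 hX p hbad
    rw [← hκ, ← hθ] at R1 R2 R3
    have m1 := fst_ne_zero w1 p h1 n1
    have m2 := fst_ne_zero w2 p h2 n2
    have m3 := fst_ne_zero w3 p h3 n3
    have hz : ∀ U' : Submodule ℝ (EuclideanSpace ℝ (Fin d) × ℝ), Rob X θ r U' →
        ∃ z, z ∈ FU U' := by
      intro U' hU'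
      obtain ⟨a, _, ha⟩ := hU'.nonempty (by omega) hθ0
      exact ⟨a, ha⟩
    have hspan : ∀ w : EuclideanSpace ℝ (Fin d) × ℝ, w ∈ hyp p → Submodule.span ℝ {w} ≤ hyp p := by
      intro w hw
      rw [Submodule.span_singleton_le_iff_mem]
      exact hw
    have e12 : U.map (rfL w1) ≠ U → Submodule.span ℝ {w1} ∈ L U (U.map (rfL w1)) := fun hne' =>
      hL _ _ w1 m1 rfl (FU_ne R1 R2 hθ0 hθ0 (Ne.symm hne')) (hz _ R1)
    have e13 : U.map (rfL w3) ≠ U → Submodule.span ℝ {w3} ∈ L U (U.map (rfL w3)) := fun hne' =>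
      hL _ _ w3 m3 rfl (FU_ne R1 R3 hθ0 hθ0 (Ne.symm hne')) (hz _ R1)
    have e23 : U.map (rfL w1) ≠ U.map (rfL w3) →
        Submodule.span ℝ {w2} ∈ L (U.map (rfL w1)) (U.map (rfL w3)) := fun hne' =>
      hL _ _ w2 m2 hmap (FU_ne R2 R3 hθ0 hθ0 hne') (hz _ R2)
    rw [mem_union]
    rcases hrd.lt_or_eq with hlt | heq
    · left
      rw [mem_biUnion]
      refine ⟨r, mem_Ico.mpr ⟨hr2, hlt⟩, ?_⟩
      rw [mem_biUnion]
      refine ⟨(U, U.map (rfL w1), U.map (rfL w3)), ?_, ?_⟩
      · rw [mem_product, mem_product]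
        exact ⟨(mem_robs hθ0).mpr R1, (mem_robs hθ0).mpr R2, (mem_robs hθ0).mpr R3⟩
      rw [mem_biUnion]
      have fin : ∀ w w' : EuclideanSpace ℝ (Fin d) × ℝ, w ∈ hyp p → w' ∈ hyp p → w ≠ 0 →
          w' ∉ Submodule.span ℝ {w} →
          (Submodule.span ℝ {w}, Submodule.span ℝ {w'}) ∈
            ((L U (U.map (rfL w1)) ×ˢ L (U.map (rfL w1)) (U.map (rfL w3))) ∪
              (L U (U.map (rfL w1)) ×ˢ L U (U.map (rfL w3))) ∪
              (L (U.map (rfL w1)) (U.map (rfL w3)) ×ˢ L U (U.map (rfL w3)))) →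
          ∃ D ∈ S3 (U, U.map (rfL w1), U.map (rfL w3)), p ∈ P.filter (fun p => D ≤ hyp p) := by
        intro w w' hw hw' hw0 hww hmem
        refine ⟨Submodule.span ℝ {w} ⊔ Submodule.span ℝ {w'}, ?_, ?_⟩
        · refine mem_filter.mpr ⟨mem_image.mpr ⟨_, hmem, rfl⟩, ?_⟩
          exact card_of_finrank P g hg _ w w'
            (Submodule.mem_sup_left (Submodule.mem_span_singleton_self w))
            (Submodule.mem_sup_right (Submodule.mem_span_singleton_self w')) hw0 hww
        · rw [mem_filter]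
          exact ⟨hpP, sup_le (hspan w hw) (hspan w' hw')⟩
      by_cases c12 : U.map (rfL w1) = U
      · -- then `U.map w3 ≠ U`
        have c13 : U.map (rfL w3) ≠ U := by
          rcases hne with h | h
          · exact absurd c12 h
          · exact h
        have c23 : U.map (rfL w1) ≠ U.map (rfL w3) := by
          rw [c12]
          exact c13.symm
        refine fin w2 w3 h2 h3 n2 hs23 ?_
        rw [mem_union, mem_union, mem_product, mem_product, mem_product]
        exact Or.inr ⟨e23 c23, e13 c13⟩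
      · by_cases c13 : U.map (rfL w3) = U
        · have c23 : U.map (rfL w1) ≠ U.map (rfL w3) := by
            rw [c13]
            exact c12
          refine fin w1 w2 h1 h2 n1 hs12 ?_
          rw [mem_union, mem_union, mem_product, mem_product, mem_product]
          exact Or.inl (Or.inl ⟨e12 c12, e23 c23⟩)
        · refine fin w1 w3 h1 h3 n1 hs13 ?_
          rw [mem_union, mem_union, mem_product, mem_product, mem_product]
          exact Or.inl (Or.inr ⟨e12 c12, e13 c13⟩)
    · right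
      obtain ⟨hpU, m, hmU, hm0⟩ := hd' heq
      -- one of the two mirrors
      obtain ⟨w, hw, hw0, hwne, hwR⟩ : ∃ w : EuclideanSpace ℝ (Fin d) × ℝ, w ∈ hyp p ∧ w ≠ 0 ∧
          U.map (rfL w) ≠ U ∧ Rob X θ r (U.map (rfL w)) := by
        rcases hne with h | h
        · exact ⟨w1, h1, n1, h, R2⟩
        · exact ⟨w3, h3, n3, h, R3⟩
      have hwL : Submodule.span ℝ {w} ∈ L U (U.map (rfL w)) :=
        hL _ _ w (fst_ne_zero w p hw hw0) rfl (FU_ne R1 hwR hθ0 hθ0 (Ne.symm hwne)) (hz _ R1)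
      rw [mem_biUnion]
      refine ⟨(U, U.map (rfL w)), ?_, ?_⟩
      · have R1' : Rob X θ d U := by rw [heq] at R1; exact R1
        have hwR' : Rob X θ d (U.map (rfL w)) := by rw [heq] at hwR; exact hwR
        exact mem_product.mpr ⟨(mem_robs hθ0).mpr R1', (mem_robs hθ0).mpr hwR'⟩
      rw [mem_biUnion]
      have hwm : w ∉ Submodule.span ℝ {m} := by
        intro hc
        apply hwne
        apply map_eq_self
        exact (Submodule.span_singleton_le_iff_mem m (du U)).mpr hmU hc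
      refine ⟨du U ⊔ Submodule.span ℝ {w}, ?_, ?_⟩
      · refine mem_filter.mpr ⟨mem_image.mpr ⟨_, hwL, rfl⟩, ?_⟩
        exact card_of_finrank P g hg _ m w (Submodule.mem_sup_left hmU)
          (Submodule.mem_sup_right (Submodule.mem_span_singleton_self w)) hm0 hwm
      · rw [mem_filter]
        exact ⟨hpP, sup_le (du_le_hyp U p hpU) (hspan w hw)⟩
  -- the count
  have hc1 : ((((Finset.Ico 2 d).biUnion fun r =>
        (robs X θ r ×ˢ robs X θ r ×ˢ robs X θ r).biUnion fun T =>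
          (S3 T).biUnion fun D => P.filter (fun p => D ≤ hyp p)).card : ℕ) : ℝ) ≤
      (Finset.Ico 2 d).card * (κ ^ (3 * (d - 1)) * (12 * g)) := by
    apply card_biUnion_le_real
    intro r hr
    rw [mem_Ico] at hr
    have h1 : ((((robs X θ r ×ˢ robs X θ r ×ˢ robs X θ r).biUnion fun T =>
          (S3 T).biUnion fun D => P.filter (fun p => D ≤ hyp p)).card : ℕ) : ℝ) ≤
        (robs X θ r ×ˢ robs X θ r ×ˢ robs X θ r).card * (12 * g) := by
      apply card_biUnion_le_real
      intro T _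
      calc _ ≤ ((S3 T).card : ℝ) * g :=
            card_biUnion_le_real _ _ g (fun D hD => (mem_filter.mp hD).2)
        _ ≤ 12 * g := mul_le_mul_of_nonneg_right (hS3 T) hg0
    refine h1.trans (mul_le_mul_of_nonneg_right ?_ (by positivity))
    rw [card_product, card_product]
    push_cast
    have h2 := hN r
    have h3 : (0:ℝ) ≤ (robs X θ r).card := by positivity
    calc ((robs X θ r).card : ℝ) * ((robs X θ r).card * (robs X θ r).card) =
          ((robs X θ r).card : ℝ) ^ 3 := by ring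
      _ ≤ (κ ^ r) ^ 3 := pow_le_pow_left₀ h3 h2 3
      _ = κ ^ (3 * r) := by rw [← pow_mul, mul_comm]
      _ ≤ κ ^ (3 * (d - 1)) := pow_le_pow_right₀ hκ1 (by omega)
  have hc2 : ((((robs X θ d ×ˢ robs X θ d).biUnion fun T =>
          (S2 T).biUnion fun D => P.filter (fun p => D ≤ hyp p)).card : ℕ) : ℝ) ≤
      κ ^ (3 * (d - 1)) * (2 * g) := by
    have h1 : ((((robs X θ d ×ˢ robs X θ d).biUnion fun T =>
          (S2 T).biUnion fun D => P.filter (fun p => D ≤ hyp p)).card : ℕ) : ℝ) ≤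
        (robs X θ d ×ˢ robs X θ d).card * (2 * g) := by
      apply card_biUnion_le_real
      intro T _
      calc _ ≤ ((S2 T).card : ℝ) * g :=
            card_biUnion_le_real _ _ g (fun D hD => (mem_filter.mp hD).2)
        _ ≤ 2 * g := mul_le_mul_of_nonneg_right (hS2 T) hg0
    refine h1.trans (mul_le_mul_of_nonneg_right ?_ (by positivity))
    rw [card_product]
    push_cast
    have h2 := hN d
    have h3 : (0:ℝ) ≤ (robs X θ d).card := by positivity
    calc ((robs X θ d).card : ℝ) * (robs X θ d).card = ((robs X θ d).card : ℝ) ^ 2 := by ring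
      _ ≤ (κ ^ d) ^ 2 := pow_le_pow_left₀ h3 h2 2
      _ = κ ^ (2 * d) := by rw [← pow_mul, mul_comm]
      _ ≤ κ ^ (3 * (d - 1)) := pow_le_pow_right₀ hκ1 (by omega)
  have hcard : ((P.filter (fun p => Bad X η p)).card : ℝ) ≤
      (Finset.Ico 2 d).card * (κ ^ (3 * (d - 1)) * (12 * g)) + κ ^ (3 * (d - 1)) * (2 * g) := by
    refine le_trans ?_ (add_le_add hc1 hc2)
    have := (card_le_card hcov).trans (card_union_le _ _)
    exact_mod_cast this
  refine hcard.trans ?_
  rw [Nat.card_Ico]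
  have hd2 : ((d - 2 : ℕ) : ℝ) = d - 2 := by
    rw [Nat.cast_sub (by omega)]
    norm_num
  rw [hd2]
  have hpos : 0 ≤ κ ^ (3 * (d - 1)) * g := by positivity
  nlinarith [hpos]

end Vale.Agent.P054G
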