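import Vale.Agent.P054.MathlibUsed
import Vale.Agent.P054.R2.H524.Count
attribute [-instance] ProperSMul.toContinuousSMul IsTopologicalTorsor.toContinuousSMul IdemSemiring.toCanonicallyOrderedAdd IdemSemiring.toMulLeftMono IdemSemiring.toMulRightMono AddQuantale.instAddLeftMono AddQuantale.instAddRightMono Quantale.instMulLeftMono Quantale.instMulRightMono FiniteDimensional.rclike_to_real IsScalarTower.complexToReal FiniteDimensional.complexToReal

set_option linter.all false
set_option autoImplicit false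

open Finset

/-! P054, the exponent for all sets: flats with a non-degenerate rich subset. -/

namespace Vale.Agent.P054G

open Vale.Agent.P054K

/-- `U` is a flat of (linear) dimension `r` with a subset `A` of `X` on it of at least `ρ` points,
at most half of them on any proper subflat -/
def RobA {d : ℕ} (X : Finset (EuclideanSpace ℝ (Fin d))) (ρ : ℝ) (r : ℕ)
    (U : Submodule ℝ (EuclideanSpace ℝ (Fin d) × ℝ)) : Prop :=
  Module.finrank ℝ U = r ∧ ∃ A ⊆ X, (∀ a ∈ A, lf a ∈ U) ∧ ρ ≤ (A.card : ℝ) ∧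
    ∀ B : Submodule ℝ (EuclideanSpace ℝ (Fin d) × ℝ), B < U → 2 * mass A lf B ≤ A.card

theorem RobA.mono {d : ℕ} {A X : Finset (EuclideanSpace ℝ (Fin d))} {ρ ρ' : ℝ} {r : ℕ}
    {U : Submodule ℝ (EuclideanSpace ℝ (Fin d) × ℝ)} (hU : RobA A ρ r U) (h : A ⊆ X)
    (hρ : ρ' ≤ ρ) : RobA X ρ' r U := by
  obtain ⟨h1, A', hA', h2, h3, h4⟩ := hU
  exact ⟨h1, A', hA'.trans h, h2, hρ.trans h3, h4⟩

theorem RobA.toRob {d : ℕ} {X : Finset (EuclideanSpace ℝ (Fin d))} {ρ : ℝ} {r : ℕ}
    {U : Submodule ℝ (EuclideanSpace ℝ (Fin d) × ℝ)} (hU : RobA X ρ r U) (hρ : 0 ≤ ρ) :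
    Rob X (ρ / 2) r U := by
  classical
  obtain ⟨h1, A, hA, h2, h3, h4⟩ := hU
  have hm : mass A lf U = A.card := by
    unfold mass
    congr 1
    rw [filter_true_of_mem h2]
  have h5 := Vale.Agent.P054F.indep_tuples A lf U 2 le_rfl (by rw [hm]; exact h4) r h1.ge
  refine Rob.mono (A := A) (θ := ρ / 2) ⟨h1, ?_⟩ hA (by linarith) le_rfl
  calc (ρ / 2) ^ r ≤ (mass A lf U / 2) ^ r := by
        apply pow_le_pow_left₀ (by linarith)
        rw [hm]
        linarith
    _ ≤ _ := h5
    _ ≤ (tup A r U : ℝ) := by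
      norm_cast
      unfold tup
      apply card_le_card
      intro g hg
      rw [mem_filter, Fintype.mem_piFinset] at hg ⊢
      obtain ⟨hg1, hg2⟩ := hg
      have hgA : ∀ i, g i ∈ A := fun i => (mem_filter.mp (hg1 i)).1
      have hgU : ∀ i, lf (g i) ∈ U := fun i => (mem_filter.mp (hg1 i)).2
      refine ⟨hgA, ?_⟩
      apply Submodule.eq_of_le_of_finrank_eq
      · rw [Submodule.span_le]
        rintro _ ⟨i, rfl⟩
        exact hgU i
      · rw [finrank_span_eq_card hg2, Fintype.card_fin, h1]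

/-- images of such flats under reflections that map `A` into `X` -/
theorem robA_map {d : ℕ} (A X : Finset (EuclideanSpace ℝ (Fin d))) (ρ : ℝ) (r : ℕ)
    (U : Submodule ℝ (EuclideanSpace ℝ (Fin d) × ℝ)) (w : EuclideanSpace ℝ (Fin d) × ℝ)
    (hU : RobA A ρ r U) (hw : ∀ a ∈ A, rf w a ∈ X) : RobA X ρ r (U.map (rfL w)) := by
  classical
  obtain ⟨h1, A', hA', h2, h3, h4⟩ := hU
  have hinj : Function.Injective (rf w) := by
    intro a b h
    rw [← rf_rf w a, h, rf_rf]
  have hcard : (A'.image (rf w)).card = A'.card := card_image_of_injective _ hinj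
  refine ⟨?_, A'.image (rf w), ?_, ?_, ?_, ?_⟩
  · rw [← h1]
    exact (LinearEquiv.finrank_eq (Submodule.equivMapOfInjective (rfL w) (rfL_injective w) U)).symm
  · intro z hz
    rw [mem_image] at hz
    obtain ⟨a, ha, rfl⟩ := hz
    exact hw a (hA' ha)
  · intro z hz
    rw [mem_image] at hz
    obtain ⟨a, ha, rfl⟩ := hz
    rw [← rfL_lf]
    exact Submodule.mem_map_of_mem (h2 a ha)
  · rw [hcard]
    exact h3
  · intro B hB
    have hlt : B.comap (rfL w) < U := by
      apply lt_of_le_of_ne
      · intro y hy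
        rw [Submodule.mem_comap] at hy
        obtain ⟨u, hu, huy⟩ := Submodule.mem_map.mp (hB.le hy)
        rw [← rfL_injective w huy]
        exact hu
      · intro hc
        apply hB.not_ge
        rw [Submodule.map_le_iff_le_comap, hc]
    have h5 := h4 _ hlt
    rw [hcard]
    refine le_trans (le_of_eq ?_) h5
    congr 1
    unfold mass
    norm_cast
    rw [filter_image, card_image_of_injective _ hinj]
    congr 1
    ext a
    rw [mem_filter, mem_filter, Submodule.mem_comap, rfL_lf]

/-- the minimal flat -/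
theorem min_flatA {d : ℕ} (A : Finset (EuclideanSpace ℝ (Fin d)))
    (U₀ : Submodule ℝ (EuclideanSpace ℝ (Fin d) × ℝ)) (hfr : Module.finrank ℝ U₀ ≤ d)
    (hA : ∀ a ∈ A, lf a ∈ U₀) (hcard : 2 ^ d < A.card) :
    ∃ (r : ℕ) (U : Submodule ℝ (EuclideanSpace ℝ (Fin d) × ℝ)), 2 ≤ r ∧ r ≤ d ∧ U ≤ U₀ ∧
      RobA A ((A.card : ℝ) / 2 ^ d) r U := by
  classical
  set Q : ℕ → Prop := fun r => ∃ U : Submodule ℝ (EuclideanSpace ℝ (Fin d) × ℝ), U ≤ U₀ ∧
    Module.finrank ℝ U = r ∧ (A.card : ℝ) ≤ 2 ^ (d - r) * mass A lf U with hQ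
  have hQ0 : Q (Module.finrank ℝ U₀) := by
    refine ⟨U₀, le_rfl, rfl, ?_⟩
    have h1 : mass A lf U₀ = A.card := by
      unfold mass
      congr 1
      rw [filter_true_of_mem hA]
    rw [h1]
    exact le_mul_of_one_le_left (by positivity) (one_le_pow₀ (by norm_num))
  have hex : ∃ r, Q r := ⟨_, hQ0⟩
  obtain ⟨U, hUle, hUr, hUm⟩ := Nat.find_spec hex
  set r := Nat.find hex with hr
  have hrd : r ≤ d := (Nat.find_min' hex hQ0).trans hfr
  have hmin : ∀ r' < r, ¬ Q r' := fun r' h => Nat.find_min hex h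
  -- at least two
  have hr2 : 2 ≤ r := by
    by_contra hcon
    have hle : r ≤ 1 := by omega
    have hm1 : mass A lf U ≤ 1 := by
      unfold mass
      have : (A.filter (fun i => lf i ∈ U)).card ≤ 1 := by
        rw [card_le_one]
        intro a ha b hb
        rw [mem_filter] at ha hb
        by_contra hab
        have hli : LinearIndependent ℝ ![lf a, lf b] := by
          rw [LinearIndependent.pair_iff]
          intro s t hst
          unfold lf at hst
          rw [Prod.smul_mk, Prod.smul_mk, Prod.mk_add_mk, Prod.mk_eq_zero] at hst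
          obtain ⟨h1, h2⟩ := hst
          simp only [smul_eq_mul, mul_one] at h2
          have h3 : t = -s := by linarith
          rw [h3, neg_smul, ← sub_eq_add_neg, ← smul_sub, smul_eq_zero] at h1
          rcases h1 with h1 | h1
          · rw [h3, h1]; simp
          · exact absurd (sub_eq_zero.mp h1) hab
        have h2 : Submodule.span ℝ (Set.range ![lf a, lf b]) ≤ U := by
          rw [Submodule.span_le]
          rintro _ ⟨i, rfl⟩
          fin_cases i
          · exact ha.2
          · exact hb.2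
        have h3 := Submodule.finrank_mono h2
        rw [finrank_span_eq_card hli, Fintype.card_fin, hUr] at h3
        omega
      exact_mod_cast this
    have h1 : (A.card : ℝ) ≤ 2 ^ (d - r) * 1 :=
      hUm.trans (mul_le_mul_of_nonneg_left hm1 (by positivity))
    have h2 : (2:ℝ) ^ (d - r) ≤ 2 ^ d := pow_le_pow_right₀ (by norm_num) (by omega)
    have h3 : (A.card : ℝ) ≤ 2 ^ d := by linarith
    have h4 : A.card ≤ 2 ^ d := by exact_mod_cast h3
    omega
  refine ⟨r, U, hr2, hrd, hUle, hUr, A.filter (fun a => lf a ∈ U), filter_subset _ _,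
    fun a ha => (mem_filter.mp ha).2, ?_, ?_⟩
  · have h3 : (2:ℝ) ^ (d - r) ≤ 2 ^ d := pow_le_pow_right₀ (by norm_num) (by omega)
    have h4 : 0 ≤ mass A lf U := by unfold mass; positivity
    rw [div_le_iff₀ (by positivity)]
    calc (A.card : ℝ) ≤ 2 ^ (d - r) * mass A lf U := hUm
      _ ≤ 2 ^ d * mass A lf U := mul_le_mul_of_nonneg_right h3 h4
      _ = mass A lf U * 2 ^ d := mul_comm _ _
  · -- proper subspaces have less than half
    intro B hB
    have h1 : Module.finrank ℝ B < r := by
      rw [← hUr]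
      exact Submodule.finrank_lt_finrank_of_lt hB
    have h2 := hmin _ h1
    rw [hQ] at h2
    push Not at h2
    have h3 := h2 B (hB.le.trans hUle) rfl
    have h4 : (2:ℝ) ^ (d - Module.finrank ℝ B) = 2 ^ (d - r) * 2 ^ (r - Module.finrank ℝ B) := by
      rw [← pow_add]
      congr 1
      omega
    have h5 : (2:ℝ) ^ 1 ≤ 2 ^ (r - Module.finrank ℝ B) :=
      pow_le_pow_right₀ (by norm_num) (by omega)
    have h6 : (0:ℝ) < 2 ^ (d - r) := by positivity
    have h7 : 0 ≤ mass A lf B := by unfold mass; positivity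
    have h8 : (2:ℝ) ^ (d - r) * (2 ^ (r - Module.finrank ℝ B) * mass A lf B) ≤
        2 ^ (d - r) * mass A lf U := by
      rw [← mul_assoc, ← h4]
      exact (h3.trans_le hUm).le
    have h9 := le_of_mul_le_mul_left h8 h6
    have h10 : mass (A.filter (fun a => lf a ∈ U)) lf B ≤ mass A lf B := by
      unfold mass
      norm_cast
      apply card_le_card
      intro a ha
      rw [mem_filter] at ha ⊢
      exact ⟨(mem_filter.mp ha.1).1, ha.2⟩
    calc 2 * mass (A.filter (fun a => lf a ∈ U)) lf B ≤ 2 * mass A lf B := by linarith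
      _ = 2 ^ 1 * mass A lf B := by norm_num
      _ ≤ 2 ^ (r - Module.finrank ℝ B) * mass A lf B := mul_le_mul_of_nonneg_right h5 h7
      _ ≤ _ := h9
      _ = _ := by unfold mass; rfl

end Vale.Agent.P054G
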