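import Vale.Agent.P054.MathlibUsed
import Vale.Agent.P054.R2.H524.BadA
attribute [-instance] ProperSMul.toContinuousSMul IsTopologicalTorsor.toContinuousSMul IdemSemiring.toCanonicallyOrderedAdd IdemSemiring.toMulLeftMono IdemSemiring.toMulRightMono AddQuantale.instAddLeftMono AddQuantale.instAddRightMono Quantale.instMulLeftMono Quantale.instMulRightMono FiniteDimensional.rclike_to_real IsScalarTower.complexToReal FiniteDimensional.complexToReal

set_option linter.all false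
set_option autoImplicit false

open Finset

/-! P054, the exponent for all sets: the number of bad centres, with both kinds of flats. -/

namespace Vale.Agent.P054G

open Vale.Agent.P054K

/-- the data of a bad centre -/
theorem bad_dataA {d : ℕ} (X : Finset (EuclideanSpace ℝ (Fin d))) (η : ℝ) (hη : 0 < η)
    (hX : 2 ^ (d + 3) * η ^ 3 < X.card) (p : EuclideanSpace ℝ (Fin d)) (hp : Bad X η p) :
    ∃ (r : ℕ) (U : Submodule ℝ (EuclideanSpace ℝ (Fin d) × ℝ))
      (w1 w2 w3 : EuclideanSpace ℝ (Fin d) × ℝ), 2 ≤ r ∧ r ≤ d ∧ w1 ∈ hyp p ∧ w2 ∈ hyp p ∧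
      w3 ∈ hyp p ∧ w1 ≠ 0 ∧ w2 ≠ 0 ∧ w3 ≠ 0 ∧
      w2 ∉ Submodule.span ℝ {w1} ∧ w3 ∉ Submodule.span ℝ {w1} ∧ w3 ∉ Submodule.span ℝ {w2} ∧
      RobA X ((X.card : ℝ) / (2 ^ (d + 3) * η ^ 3)) r U ∧
      RobA X ((X.card : ℝ) / (2 ^ (d + 3) * η ^ 3)) r (U.map (rfL w1)) ∧
      RobA X ((X.card : ℝ) / (2 ^ (d + 3) * η ^ 3)) r (U.map (rfL w3)) ∧
      (U.map (rfL w1)).map (rfL w2) = U.map (rfL w3) ∧
      (U.map (rfL w1) ≠ U ∨ U.map (rfL w3) ≠ U) ∧ (r = d → ∃ m, m ≠ 0 ∧ U = hf m p) := by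
  classical
  have hXpos : (0:ℝ) < X.card := lt_of_le_of_lt (by positivity) hX
  have hXne : X.Nonempty := by
    rw [← card_pos]
    exact_mod_cast hXpos
  obtain ⟨w1, h1, w2, h2, w3, h3, n1, n2, n3, A, hAX, hAc, hA⟩ := bad_pattern X η p hXne hp
  have hη3 : 0 < η ^ 3 := by positivity
  have hApos : (0:ℝ) < A.card := by
    by_contra hcon
    push Not at hcon
    have : (8:ℝ) * η ^ 3 * A.card ≤ 0 := mul_nonpos_of_nonneg_of_nonpos (by positivity) hcon
    linarith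
  have hAne : A.Nonempty := by
    rw [← card_pos]
    exact_mod_cast hApos
  obtain ⟨a0, ha0⟩ := hAne
  have hA0 := hA a0 ha0
  obtain ⟨-, -, f3, f4, f5, f6⟩ := hA0
  -- the three mirrors are different
  have hs12 : w2 ∉ Submodule.span ℝ {w1} := by
    intro hc
    have e := rf_of_span w2 w1 n2 n1 hc (rf w1 a0)
    rw [rf_rf, f3] at e
    exact f6 e
  have hs13 : w3 ∉ Submodule.span ℝ {w1} := by
    intro hc
    exact f5 (rf_of_span w3 w1 n3 n1 hc a0).symm
  have hs23 : w3 ∉ Submodule.span ℝ {w2} := by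
    intro hc
    have e := rf_of_span w3 w2 n3 n2 hc a0
    rw [← f3] at e
    have e2 := congrArg (rf w2) e
    rw [rf_rf, rf_rf] at e2
    exact f4 e2.symm
  obtain ⟨m, hm, w, hw, hmA⟩ := refl_tri p w1 w2 w3 h1 h2 h3 n1
  have hmA' : ∀ a ∈ A, inner ℝ m (a - p) = 0 ∧ inner ℝ m (rf w a - p) ≠ 0 := by
    intro a ha
    obtain ⟨-, -, g3, g4, g5, g6⟩ := hA a ha
    exact hmA a g4 (by rw [g3]; exact g5) (by rw [g3]; exact g6) g3.symm
  have hAcard : 2 ^ d < A.card := by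
    have e1 : (2:ℝ) ^ (d + 3) * η ^ 3 < 8 * η ^ 3 * A.card := lt_of_lt_of_le hX hAc
    have e2 : (2:ℝ) ^ (d + 3) * η ^ 3 = 8 * η ^ 3 * 2 ^ d := by rw [pow_add]; ring
    rw [e2] at e1
    have e3 := lt_of_mul_lt_mul_left e1 (by positivity)
    exact_mod_cast e3
  obtain ⟨r, U, hr2, hrd, hU0, hRob⟩ := min_flatA A (hf m p) (finrank_hf m p hm).le
    (fun a ha => (lf_mem_hf m p a).mpr (hmA' a ha).1) hAcard
  have hθ : (X.card : ℝ) / (2 ^ (d + 3) * η ^ 3) ≤ (A.card : ℝ) / 2 ^ d := by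
    rw [div_le_div_iff₀ (by positivity) (by positivity)]
    have e2 : (2:ℝ) ^ (d + 3) = 8 * 2 ^ d := by
      rw [pow_add]; ring
    rw [e2]
    calc (X.card : ℝ) * 2 ^ d ≤ (8 * η ^ 3 * A.card) * 2 ^ d :=
          mul_le_mul_of_nonneg_right hAc (by positivity)
      _ = _ := by ring
  have hθ0 : 0 < (X.card : ℝ) / (2 ^ (d + 3) * η ^ 3) := by positivity
  have hRobA : RobA A ((X.card : ℝ) / (2 ^ (d + 3) * η ^ 3)) r U :=
    hRob.mono (Finset.Subset.refl A) hθ
  have hRobR := hRobA.toRob hθ0.le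
  obtain ⟨a1, ha1, ha1U⟩ := hRobR.nonempty (by omega) (by positivity)
  have hwne : U.map (rfL w) ≠ U := by
    intro hc
    have e1 : lf (rf w a1) ∈ U := by
      rw [← hc, ← rfL_lf]
      exact Submodule.mem_map_of_mem ha1U
    exact (hmA' a1 ha1).2 ((lf_mem_hf m p _).mp (hU0 e1))
  refine ⟨r, U, w1, w2, w3, hr2, hrd, h1, h2, h3, n1, n2, n3, hs12, hs13, hs23,
    hRobA.mono hAX le_rfl, robA_map A X _ r U w1 hRobA (fun a ha => (hA a ha).1),
    robA_map A X _ r U w3 hRobA (fun a ha => (hA a ha).2.1),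
    map_pattern A _ r U hRobR (by positivity) w1 w2 w3 (fun a ha => (hA a ha).2.2.1), ?_, ?_⟩
  · rcases hw with rfl | rfl
    · exact Or.inl hwne
    · exact Or.inr hwne
  · intro hr
    refine ⟨m, hm, ?_⟩
    apply Submodule.eq_of_le_of_finrank_eq hU0
    rw [finrank_hf m p hm, hRob.1, hr]

open scoped Classical in
/-- all such flats -/
noncomputable def robsA {d : ℕ} (X : Finset (EuclideanSpace ℝ (Fin d))) (θ : ℝ) (r : ℕ) :
    Finset (Submodule ℝ (EuclideanSpace ℝ (Fin d) × ℝ)) :=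
  (robs X (θ / 2) r).filter (fun U => RobA X θ r U)

theorem mem_robsA {d : ℕ} {X : Finset (EuclideanSpace ℝ (Fin d))} {θ : ℝ} {r : ℕ}
    {U : Submodule ℝ (EuclideanSpace ℝ (Fin d) × ℝ)} (hθ : 0 < θ) :
    U ∈ robsA X θ r ↔ RobA X θ r U := by
  classical
  unfold robsA
  rw [mem_filter, mem_robs (by positivity)]
  exact ⟨fun h => h.2, fun h => ⟨h.toRob hθ.le, h⟩⟩

open scoped Classical in
/-- **few bad centres**: triples of flats with a count on flats of codimension two, and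
hyperplanes -/
theorem bad_countA {d : ℕ} (hd : 2 ≤ d) (P X : Finset (EuclideanSpace ℝ (Fin d)))
    (η W M1 M2 : ℝ) (hη : 1 ≤ η) (hX : 2 ^ (d + 3) * η ^ 3 < X.card) (hW : 1 ≤ W) (hM1 : 0 ≤ M1)
    (hM2 : 0 ≤ M2)
    (hN : ∀ r, 2 ≤ r → r ≤ d → ∀ N : Finset (Submodule ℝ (EuclideanSpace ℝ (Fin d) × ℝ)),
      (∀ U ∈ N, RobA X ((X.card : ℝ) / (2 ^ (d + 3) * η ^ 3)) r U) →
        (N.card : ℝ) ≤ W * (2 ^ (d + 3) * η ^ 3) ^ (r - 1))
    (hg1 : ∀ p0 v : EuclideanSpace ℝ (Fin d), v ≠ 0 →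
      ((P.filter (fun z => inner ℝ v (z - p0) = 0)).card : ℝ) ≤ M1)
    (hg2 : ∀ D : Submodule ℝ (EuclideanSpace ℝ (Fin d) × ℝ), Module.finrank ℝ D = 2 →
      ((P.filter (fun p => D ≤ hyp p)).card : ℝ) ≤ M2) :
    ((P.filter (fun p => Bad X η p)).card : ℝ) ≤
      12 * d * W ^ 3 * (2 ^ (d + 3) * η ^ 3) ^ (3 * (d - 2)) * M2 +
        W * (2 ^ (d + 3) * η ^ 3) ^ (d - 1) * M1 := by
  have hη0 : 0 < η := by linarith
  have hη3 : 0 < η ^ 3 := by positivity
  have hXpos : (0:ℝ) < X.card := lt_of_le_of_lt (by positivity) hX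
  obtain ⟨L, hL2, hL⟩ := mirror_fun d
  set κ : ℝ := 2 ^ (d + 3) * η ^ 3 with hκ
  have hκ1 : 1 ≤ κ := by
    rw [hκ]
    exact one_le_mul_of_one_le_of_one_le (one_le_pow₀ (by norm_num)) (one_le_pow₀ hη)
  have hκ0 : 0 < κ := by linarith
  have hW0 : 0 ≤ W := by linarith
  set θ : ℝ := (X.card : ℝ) / κ with hθ
  have hθ0 : 0 < θ := by positivity
  have hN' : ∀ r, 2 ≤ r → r ≤ d → ((robsA X θ r).card : ℝ) ≤ W * κ ^ (r - 1) := fun r h2 h3 =>
    hN r h2 h3 _ (fun U hU => (mem_robsA hθ0).mp hU)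
  -- candidates, small dimension
  let S3 : Submodule ℝ (EuclideanSpace ℝ (Fin d) × ℝ) × Submodule ℝ (EuclideanSpace ℝ (Fin d) × ℝ) ×
      Submodule ℝ (EuclideanSpace ℝ (Fin d) × ℝ) →
      Finset (Submodule ℝ (EuclideanSpace ℝ (Fin d) × ℝ)) := fun T =>
    (((L T.1 T.2.1 ×ˢ L T.2.1 T.2.2) ∪ (L T.1 T.2.1 ×ˢ L T.1 T.2.2) ∪
      (L T.2.1 T.2.2 ×ˢ L T.1 T.2.2)).image (fun q => q.1 ⊔ q.2)).filter
      (fun D => ((P.filter (fun p => D ≤ hyp p)).card : ℝ) ≤ M2)
  have hS3 : ∀ T, ((S3 T).card : ℝ) ≤ 12 := by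
    intro T
    have h1 : (S3 T).card ≤ 12 := by
      calc (S3 T).card ≤ _ := card_filter_le _ _
        _ ≤ _ := card_image_le
        _ ≤ _ := (card_union_le _ _).trans (Nat.add_le_add_right (card_union_le _ _) _)
        _ ≤ 2 * 2 + 2 * 2 + 2 * 2 := by
          rw [card_product, card_product, card_product]
          exact Nat.add_le_add (Nat.add_le_add (Nat.mul_le_mul (hL2 _ _) (hL2 _ _))
            (Nat.mul_le_mul (hL2 _ _) (hL2 _ _))) (Nat.mul_le_mul (hL2 _ _) (hL2 _ _))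
        _ = 12 := by norm_num
    exact_mod_cast h1
  -- hyperplanes
  let S1 : Finset (Submodule ℝ (EuclideanSpace ℝ (Fin d) × ℝ)) :=
    (robsA X θ d).filter (fun U => ((P.filter (fun p => lf p ∈ U)).card : ℝ) ≤ M1)
  -- the covering
  have hcov : P.filter (fun p => Bad X η p) ⊆
      ((Finset.Ico 2 d).biUnion fun r =>
        (robsA X θ r ×ˢ robsA X θ r ×ˢ robsA X θ r).biUnion fun T =>
          (S3 T).biUnion fun D => P.filter (fun p => D ≤ hyp p)) ∪
      S1.biUnion fun U => P.filter (fun p => lf p ∈ U) := by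
    intro p hp
    rw [mem_filter] at hp
    obtain ⟨hpP, hbad⟩ := hp
    obtain ⟨r, U, w1, w2, w3, hr2, hrd, h1, h2, h3, n1, n2, n3, hs12, hs13, hs23, R1, R2, R3,
      hmap, hne, hd'⟩ := bad_dataA X η hη0 hX p hbad
    rw [← hκ, ← hθ] at R1 R2 R3
    have m1 := fst_ne_zero w1 p h1 n1
    have m2 := fst_ne_zero w2 p h2 n2
    have m3 := fst_ne_zero w3 p h3 n3
    have hθ2 : 0 < θ / 2 := by positivity
    have hz : ∀ U' : Submodule ℝ (EuclideanSpace ℝ (Fin d) × ℝ), RobA X θ r U' →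
        ∃ z, z ∈ FU U' := by
      intro U' hU'
      obtain ⟨a, _, ha⟩ := (hU'.toRob hθ0.le).nonempty (by omega) hθ2
      exact ⟨a, ha⟩
    have hFne : ∀ U1 U2 : Submodule ℝ (EuclideanSpace ℝ (Fin d) × ℝ), RobA X θ r U1 →
        RobA X θ r U2 → U1 ≠ U2 → FU U1 ≠ FU U2 := fun U1 U2 a1 a2 hne' =>
      FU_ne (a1.toRob hθ0.le) (a2.toRob hθ0.le) hθ2 hθ2 hne'
    have hspan : ∀ w : EuclideanSpace ℝ (Fin d) × ℝ, w ∈ hyp p → Submodule.span ℝ {w} ≤ hyp p := by
      intro w hw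
      rw [Submodule.span_singleton_le_iff_mem]
      exact hw
    have e12 : U.map (rfL w1) ≠ U → Submodule.span ℝ {w1} ∈ L U (U.map (rfL w1)) := fun hne' =>
      hL _ _ w1 m1 rfl (hFne _ _ R1 R2 (Ne.symm hne')) (hz _ R1)
    have e13 : U.map (rfL w3) ≠ U → Submodule.span ℝ {w3} ∈ L U (U.map (rfL w3)) := fun hne' =>
      hL _ _ w3 m3 rfl (hFne _ _ R1 R3 (Ne.symm hne')) (hz _ R1)
    have e23 : U.map (rfL w1) ≠ U.map (rfL w3) →
        Submodule.span ℝ {w2} ∈ L (U.map (rfL w1)) (U.map (rfL w3)) := fun hne' =>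
      hL _ _ w2 m2 hmap (hFne _ _ R2 R3 hne') (hz _ R2)
    rw [mem_union]
    rcases hrd.lt_or_eq with hlt | heq
    · left
      rw [mem_biUnion]
      refine ⟨r, mem_Ico.mpr ⟨hr2, hlt⟩, ?_⟩
      rw [mem_biUnion]
      refine ⟨(U, U.map (rfL w1), U.map (rfL w3)), ?_, ?_⟩
      · rw [mem_product, mem_product]
        exact ⟨(mem_robsA hθ0).mpr R1, (mem_robsA hθ0).mpr R2, (mem_robsA hθ0).mpr R3⟩
      rw [mem_biUnion]
      have fin : ∀ w w' : EuclideanSpace ℝ (Fin d) × ℝ, w ∈ hyp p → w' ∈ hyp p → w ≠ 0 →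
          w' ∉ Submodule.span ℝ {w} →
          (Submodule.span ℝ {w}, Submodule.span ℝ {w'}) ∈
            ((L U (U.map (rfL w1)) ×ˢ L (U.map (rfL w1)) (U.map (rfL w3))) ∪
              (L U (U.map (rfL w1)) ×ˢ L U (U.map (rfL w3))) ∪
              (L (U.map (rfL w1)) (U.map (rfL w3)) ×ˢ L U (U.map (rfL w3)))) →
          ∃ D ∈ S3 (U, U.map (rfL w1), U.map (rfL w3)), p ∈ P.filter (fun p => D ≤ hyp p) := by
        intro w w' hw hw' hw0 hww hmem
        refine ⟨Submodule.span ℝ {w} ⊔ Submodule.span ℝ {w'}, ?_, ?_⟩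
        · refine mem_filter.mpr ⟨mem_image.mpr ⟨_, hmem, rfl⟩, ?_⟩
          exact card_of_finrank P M2 hg2 _ w w'
            (Submodule.mem_sup_left (Submodule.mem_span_singleton_self w))
            (Submodule.mem_sup_right (Submodule.mem_span_singleton_self w')) hw0 hww
        · rw [mem_filter]
          exact ⟨hpP, sup_le (hspan w hw) (hspan w' hw')⟩
      by_cases c12 : U.map (rfL w1) = U
      · -- then `U.map w3 ≠ U`
        have c13 : U.map (rfL w3) ≠ U := by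
          rcases hne with h | h
          · exact absurd c12 h
          · exact h
        have c23 : U.map (rfL w1) ≠ U.map (rfL w3) := by
          rw [c12]
          exact c13.symm
        refine fin w2 w3 h2 h3 n2 hs23 ?_
        rw [mem_union, mem_union, mem_product, mem_product, mem_product]
        exact Or.inr ⟨e23 c23, e13 c13⟩
      · by_cases c13 : U.map (rfL w3) = U
        · have c23 : U.map (rfL w1) ≠ U.map (rfL w3) := by
            rw [c13]
            exact c12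
          refine fin w1 w2 h1 h2 n1 hs12 ?_
          rw [mem_union, mem_union, mem_product, mem_product, mem_product]
          exact Or.inl (Or.inl ⟨e12 c12, e23 c23⟩)
        · refine fin w1 w3 h1 h3 n1 hs13 ?_
          rw [mem_union, mem_union, mem_product, mem_product, mem_product]
          exact Or.inl (Or.inr ⟨e12 c12, e13 c13⟩)
    · right
      obtain ⟨m, hm0, hUm⟩ := hd' heq
      have R1' : RobA X θ d U := by rw [heq] at R1; exact R1
      rw [mem_biUnion]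
      refine ⟨U, mem_filter.mpr ⟨(mem_robsA hθ0).mpr R1', ?_⟩, ?_⟩
      · refine le_trans (le_of_eq ?_) (hg1 p m hm0)
        norm_cast
        congr 1
        ext z
        rw [mem_filter, mem_filter, hUm, lf_mem_hf]
      · rw [mem_filter, hUm, lf_mem_hf, sub_self, inner_zero_right]
        exact ⟨hpP, rfl⟩
  -- the count
  have hc1 : ((((Finset.Ico 2 d).biUnion fun r =>
        (robsA X θ r ×ˢ robsA X θ r ×ˢ robsA X θ r).biUnion fun T =>
          (S3 T).biUnion fun D => P.filter (fun p => D ≤ hyp p)).card : ℕ) : ℝ) ≤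
      (Finset.Ico 2 d).card * (W ^ 3 * κ ^ (3 * (d - 2)) * (12 * M2)) := by
    apply card_biUnion_le_real
    intro r hr
    rw [mem_Ico] at hr
    have h1 : ((((robsA X θ r ×ˢ robsA X θ r ×ˢ robsA X θ r).biUnion fun T =>
          (S3 T).biUnion fun D => P.filter (fun p => D ≤ hyp p)).card : ℕ) : ℝ) ≤
        (robsA X θ r ×ˢ robsA X θ r ×ˢ robsA X θ r).card * (12 * M2) := by
      apply card_biUnion_le_real
      intro T _
      calc _ ≤ ((S3 T).card : ℝ) * M2 :=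
            card_biUnion_le_real _ _ M2 (fun D hD => (mem_filter.mp hD).2)
        _ ≤ 12 * M2 := mul_le_mul_of_nonneg_right (hS3 T) hM2
    refine h1.trans (mul_le_mul_of_nonneg_right ?_ (by positivity))
    rw [card_product, card_product]
    push_cast
    have h2 := hN' r hr.1 hr.2.le
    have h3 : (0:ℝ) ≤ (robsA X θ r).card := by positivity
    calc ((robsA X θ r).card : ℝ) * ((robsA X θ r).card * (robsA X θ r).card) =
          ((robsA X θ r).card : ℝ) ^ 3 := by ring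
      _ ≤ (W * κ ^ (r - 1)) ^ 3 := pow_le_pow_left₀ h3 h2 3
      _ = W ^ 3 * κ ^ (3 * (r - 1)) := by rw [mul_pow, ← pow_mul, mul_comm 3 (r - 1)]
      _ ≤ W ^ 3 * κ ^ (3 * (d - 2)) :=
        mul_le_mul_of_nonneg_left (pow_le_pow_right₀ hκ1 (by omega)) (by positivity)
  have hc2 : (((S1.biUnion fun U => P.filter (fun p => lf p ∈ U)).card : ℕ) : ℝ) ≤
      W * κ ^ (d - 1) * M1 := by
    calc _ ≤ (S1.card : ℝ) * M1 :=
          card_biUnion_le_real _ _ M1 (fun U hU => (mem_filter.mp hU).2)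
      _ ≤ _ := mul_le_mul_of_nonneg_right ?_ hM1
    refine le_trans ?_ (hN' d hd le_rfl)
    exact_mod_cast card_filter_le _ _
  have hcard : ((P.filter (fun p => Bad X η p)).card : ℝ) ≤
      (Finset.Ico 2 d).card * (W ^ 3 * κ ^ (3 * (d - 2)) * (12 * M2)) + W * κ ^ (d - 1) * M1 := by
    refine le_trans ?_ (add_le_add hc1 hc2)
    have := (card_le_card hcov).trans (card_union_le _ _)
    exact_mod_cast this
  refine hcard.trans ?_
  rw [Nat.card_Ico]
  have hd2 : ((d - 2 : ℕ) : ℝ) = d - 2 := by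
    rw [Nat.cast_sub (by omega)]
    norm_num
  rw [hd2]
  have hpos : 0 ≤ W ^ 3 * κ ^ (3 * (d - 2)) * M2 := by positivity
  nlinarith [hpos]

end Vale.Agent.P054G
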