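import Vale.Agent.P054.MathlibUsed
import Vale.Agent.P054.H449.IM.Defs3
import Vale.Agent.P054.R2.H524.CountA
attribute [-instance] ProperSMul.toContinuousSMul IsTopologicalTorsor.toContinuousSMul IdemSemiring.toCanonicallyOrderedAdd IdemSemiring.toMulLeftMono IdemSemiring.toMulRightMono AddQuantale.instAddLeftMono AddQuantale.instAddRightMono Quantale.instMulLeftMono Quantale.instMulRightMono FiniteDimensional.rclike_to_real IsScalarTower.complexToReal FiniteDimensional.complexToReal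

set_option linter.all false
set_option autoImplicit false

open Finset Vale.Agent.P054K Vale.Agent.P054G

/-! P054, the exponent for all sets: the local lemma with both kinds of flats. -/

namespace Vale.Agent.P054I

/-- the number of flats with a non-degenerate rich subset -/
def RobACount (d : ℕ) (K : ℝ) (c : ℕ) : Prop :=
  ∀ (X : Finset (EuclideanSpace ℝ (Fin d))) (r l : ℕ) (ρ : ℝ)
    (N : Finset (Submodule ℝ (EuclideanSpace ℝ (Fin d) × ℝ))), 2 ≤ r → r ≤ d →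
    20 * (Real.log ((X.card : ℝ) + 3) + 1) ≤ l → K * (l:ℝ) ^ c * X.card ≤ ρ ^ 2 →
    K * (l:ℝ) ^ c ≤ ρ → (∀ U ∈ N, RobA X ρ r U) →
    (N.card : ℝ) ≤ K * (l:ℝ) ^ c * ((X.card : ℝ) / ρ) ^ (r - 1)

/-- local lemma for bad points, with hyperplanes (`M1`) and flats of codimension two (`M2`) -/
def LocalB3 (d : ℕ) (C : ℝ) (c : ℕ) : Prop :=
  open scoped Classical in
  ∀ (X P : Finset (EuclideanSpace ℝ (Fin d))) (l : ℕ) (k M1 M2 : ℝ), 1 ≤ k →
    20 * (Real.log ((X.card : ℝ) + 3) + 1) ≤ l → C * (l:ℝ) ^ c * k ^ 6 ≤ X.card →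
    0 ≤ M1 → 0 ≤ M2 → (∀ p ∈ P, Bad X k p) →
    (∀ p0 v : EuclideanSpace ℝ (Fin d), v ≠ 0 →
      ((P.filter (fun z => inner ℝ v (z - p0) = 0)).card : ℝ) ≤ M1) →
    (∀ D : Submodule ℝ (EuclideanSpace ℝ (Fin d) × ℝ), Module.finrank ℝ D = 2 →
      ((P.filter (fun p => D ≤ hyp p)).card : ℝ) ≤ M2) →
    (P.card : ℝ) ≤ C * (l:ℝ) ^ c * (k ^ (9 * (d - 2)) * M2 + k ^ (3 * (d - 1)) * M1)

theorem localB3 (d : ℕ) (hd : 2 ≤ d) (K : ℝ) (c : ℕ) (hK : 1 ≤ K) (hc : RobACount d K c) :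
    LocalB3 d (12 * d * K ^ 3 * 2 ^ (3 * d * (d + 3))) (3 * c) := by
  classical
  intro X P l k M1 M2 hk hl hX hM1 hM2 hP hg1 hg2
  have hk0 : 0 < k := by linarith
  have hd1 : (1:ℝ) ≤ d := by exact_mod_cast (by omega : 1 ≤ d)
  have hlog : 0 ≤ Real.log ((X.card : ℝ) + 3) := Real.log_nonneg (by
    have : (0:ℝ) ≤ X.card := by positivity
    linarith)
  have hl1 : (1:ℝ) ≤ l := by linarith
  have hl0 : (0:ℝ) < l := by linarith
  have hK0 : 0 < K := by linarith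
  set W : ℝ := K * (l:ℝ) ^ c with hW
  have hW1 : 1 ≤ W := one_le_mul_of_one_le_of_one_le hK (one_le_pow₀ hl1)
  have hW0 : 0 < W := by linarith
  have hW3 : W ^ 3 = K ^ 3 * (l:ℝ) ^ (3 * c) := by
    rw [hW, mul_pow, ← pow_mul, mul_comm c 3]
  set κ : ℝ := 2 ^ (d + 3) * k ^ 3 with hκ
  have hκ1 : 1 ≤ κ := one_le_mul_of_one_le_of_one_le (one_le_pow₀ (by norm_num)) (one_le_pow₀ hk)
  have hκ0 : 0 < κ := by linarith
  have hCC : (12 * d * K ^ 3 * 2 ^ (3 * d * (d + 3)) : ℝ) * (l:ℝ) ^ (3 * c) =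
      12 * d * W ^ 3 * 2 ^ (3 * d * (d + 3)) := by rw [hW3]; ring
  rw [hCC] at hX ⊢
  have hWW3 : W ≤ W ^ 3 := le_self_pow₀ hW1 (by norm_num)
  have h12 : 1 ≤ 12 * (d:ℝ) := by linarith
  -- side conditions
  have hside : W * κ ^ 2 ≤ X.card := by
    refine le_trans ?_ hX
    have e1 : κ ^ 2 = 2 ^ (2 * (d + 3)) * k ^ 6 := by
      rw [hκ, mul_pow, ← pow_mul, ← pow_mul, mul_comm (d + 3) 2]
    rw [e1]
    have e2 : (2:ℝ) ^ (2 * (d + 3)) ≤ 2 ^ (3 * d * (d + 3)) := by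
      apply pow_le_pow_right₀ (by norm_num)
      exact Nat.mul_le_mul_right _ (by omega)
    calc W * (2 ^ (2 * (d + 3)) * k ^ 6) = (1 * W * 2 ^ (2 * (d + 3))) * k ^ 6 := by ring
      _ ≤ (12 * d * W ^ 3 * 2 ^ (3 * d * (d + 3))) * k ^ 6 := by
        apply mul_le_mul_of_nonneg_right _ (by positivity)
        apply mul_le_mul _ e2 (by positivity) (by positivity)
        exact mul_le_mul h12 hWW3 hW0.le (by positivity)
  have hXκ : κ < X.card := by
    have e1 : (2:ℝ) ^ (d + 3) < 2 ^ (3 * d * (d + 3)) := by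
      apply pow_lt_pow_right₀ (by norm_num)
      nlinarith
    have e3 : k ^ 3 ≤ k ^ 6 := pow_le_pow_right₀ hk (by norm_num)
    refine lt_of_lt_of_le ?_ hX
    rw [hκ]
    calc (2:ℝ) ^ (d + 3) * k ^ 3 ≤ 2 ^ (d + 3) * k ^ 6 :=
          mul_le_mul_of_nonneg_left e3 (by positivity)
      _ < 2 ^ (3 * d * (d + 3)) * k ^ 6 := mul_lt_mul_of_pos_right e1 (by positivity)
      _ = (1 * 1 * 2 ^ (3 * d * (d + 3))) * k ^ 6 := by ring
      _ ≤ _ := by
        apply mul_le_mul_of_nonneg_right _ (by positivity)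
        apply mul_le_mul_of_nonneg_right _ (by positivity)
        exact mul_le_mul h12 (one_le_pow₀ hW1) (by norm_num) (by positivity)
  have hX0 : (0:ℝ) < X.card := by linarith
  have h1 := bad_countA hd P X k W M1 M2 hk hXκ hW1 hM1 hM2 ?_ hg1 hg2
  · rw [filter_true_of_mem hP] at h1
    refine h1.trans ?_
    rw [← hκ]
    have e1 : κ ^ (3 * (d - 2)) = 2 ^ ((d + 3) * (3 * (d - 2))) * k ^ (9 * (d - 2)) := by
      rw [hκ, mul_pow, ← pow_mul, ← pow_mul]
      congr 2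
      ring
    have e2 : κ ^ (d - 1) = 2 ^ ((d + 3) * (d - 1)) * k ^ (3 * (d - 1)) := by
      rw [hκ, mul_pow, ← pow_mul, ← pow_mul]
    have e3 : (2:ℝ) ^ ((d + 3) * (3 * (d - 2))) ≤ 2 ^ (3 * d * (d + 3)) := by
      apply pow_le_pow_right₀ (by norm_num)
      rw [mul_comm (d + 3)]
      exact Nat.mul_le_mul_right _ (by omega)
    have e4 : (2:ℝ) ^ ((d + 3) * (d - 1)) ≤ 2 ^ (3 * d * (d + 3)) := by
      apply pow_le_pow_right₀ (by norm_num)
      rw [mul_comm (d + 3)]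
      exact Nat.mul_le_mul_right _ (by omega)
    rw [e1, e2, mul_add]
    apply add_le_add
    · calc 12 * (d:ℝ) * W ^ 3 * (2 ^ ((d + 3) * (3 * (d - 2))) * k ^ (9 * (d - 2))) * M2 =
            (12 * d * W ^ 3 * 2 ^ ((d + 3) * (3 * (d - 2)))) * (k ^ (9 * (d - 2)) * M2) := by ring
        _ ≤ (12 * d * W ^ 3 * 2 ^ (3 * d * (d + 3))) * (k ^ (9 * (d - 2)) * M2) := by
          apply mul_le_mul_of_nonneg_right _ (by positivity)
          exact mul_le_mul_of_nonneg_left e3 (by positivity)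
    · calc W * (2 ^ ((d + 3) * (d - 1)) * k ^ (3 * (d - 1))) * M1 =
            (1 * W * 2 ^ ((d + 3) * (d - 1))) * (k ^ (3 * (d - 1)) * M1) := by ring
        _ ≤ (12 * d * W ^ 3 * 2 ^ (3 * d * (d + 3))) * (k ^ (3 * (d - 1)) * M1) := by
          apply mul_le_mul_of_nonneg_right _ (by positivity)
          apply mul_le_mul _ e4 (by positivity) (by positivity)
          exact mul_le_mul h12 hWW3 hW0.le (by positivity)
  · intro r hr2 hrd N hN
    rw [← hκ] at hN ⊢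
    have hρ : 0 < (X.card : ℝ) / κ := by positivity
    have h2 := hc X r l ((X.card : ℝ) / κ) N hr2 hrd hl ?_ ?_ hN
    · rw [← hW] at h2
      have e1 : (X.card : ℝ) / ((X.card : ℝ) / κ) = κ := by field_simp
      rw [e1] at h2
      exact h2
    · rw [← hW, div_pow, le_div_iff₀ (by positivity)]
      calc W * (X.card : ℝ) * κ ^ 2 = (W * κ ^ 2) * (X.card : ℝ) := by ring
        _ ≤ (X.card : ℝ) * (X.card : ℝ) := mul_le_mul_of_nonneg_right hside hX0.le
        _ = (X.card : ℝ) ^ 2 := by ring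
    · rw [← hW, le_div_iff₀ hκ0]
      refine le_trans ?_ hside
      apply mul_le_mul_of_nonneg_left _ hW0.le
      exact le_self_pow₀ hκ1 (by norm_num)

end Vale.Agent.P054I
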