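import Vale.Agent.P054.MathlibUsed
import Vale.Agent.P054.H25.Top
import Vale.Agent.P054.R2.H524.Local3
attribute [-instance] ProperSMul.toContinuousSMul IsTopologicalTorsor.toContinuousSMul IdemSemiring.toCanonicallyOrderedAdd IdemSemiring.toMulLeftMono IdemSemiring.toMulRightMono AddQuantale.instAddLeftMono AddQuantale.instAddRightMono Quantale.instMulLeftMono Quantale.instMulRightMono FiniteDimensional.rclike_to_real IsScalarTower.complexToReal FiniteDimensional.complexToReal

set_option linter.all false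
set_option autoImplicit false

open Finset Vale.Agent.P054K Vale.Agent.P054G

/-! P054, the exponent for all sets: the local lemma for sets with few distances. -/

namespace Vale.Agent.P054I

open scoped Classical in
/-- the sections by flats of codimension two -/
theorem codim2_of_pinned {d t : ℕ} (hd : 2 ≤ d) {g : ℝ} (hg : PinnedBy (d - 2) t g)
    (P : Finset (EuclideanSpace ℝ (Fin d))) (ht : ∀ p ∈ P, (P.image (dist p)).card ≤ t + 1)
    (D : Submodule ℝ (EuclideanSpace ℝ (Fin d) × ℝ)) (hD : Module.finrank ℝ D = 2) :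
    ((P.filter (fun p => D ≤ hyp p)).card : ℝ) ≤ g := by
  refine flat_bound (j := d - 2) P _ (filter_subset _ _) ht D ?_ ?_ hg
  · intro p hp
    exact (mem_filter.mp hp).2
  · rw [hD]
    omega

/-- the local lemma, in the form that is used -/
theorem local_pinned {d : ℕ} (hd : 2 ≤ d) {C : ℝ} {c : ℕ} (h : LocalB3 d C c) (t : ℕ) (g1 g2 : ℝ)
    (hg1 : PinnedBy (d - 1) t g1) (hg2 : PinnedBy (d - 2) t g2)
    (P X P0 : Finset (EuclideanSpace ℝ (Fin d)))
    (ht : ∀ p ∈ P, (P.image (dist p)).card ≤ t + 1) (hP0 : P0 ⊆ P) (l : ℕ) (k : ℝ) (hk : 1 ≤ k)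
    (hl : 20 * (Real.log ((X.card : ℝ) + 3) + 1) ≤ l) (hX : C * (l:ℝ) ^ c * k ^ 6 ≤ X.card)
    (hbad : ∀ p ∈ P0, Bad X k p) :
    (P0.card : ℝ) ≤ C * (l:ℝ) ^ c * (k ^ (9 * (d - 2)) * g2 + k ^ (3 * (d - 1)) * g1) := by
  classical
  have h0 : ∀ (j : ℕ) (g : ℝ), PinnedBy j t g → 0 ≤ g := by
    intro j g hg
    have := hg ∅ (by simp)
    simpa using this
  have ht0 : ∀ p ∈ P0, (P0.image (dist p)).card ≤ t + 1 := fun p hp =>
    (card_le_card (image_subset_image hP0)).trans (ht p (hP0 hp))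
  exact h X P0 l k g1 g2 hk hl hX (h0 _ _ hg1) (h0 _ _ hg2) hbad
    (fun p0 v hv => sect_of_pinned (by omega) hg1 P0 ht0 p0 v hv)
    (fun D hD => codim2_of_pinned hd hg2 P0 ht0 D hD)

end Vale.Agent.P054I
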