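import Vale.Agent.P054.MathlibUsed
import Vale.Agent.P054.H343.G.RobET
import Vale.Agent.P054.R2.H524.Pin
attribute [-instance] ProperSMul.toContinuousSMul IsTopologicalTorsor.toContinuousSMul IdemSemiring.toCanonicallyOrderedAdd IdemSemiring.toMulLeftMono IdemSemiring.toMulRightMono AddQuantale.instAddLeftMono AddQuantale.instAddRightMono Quantale.instMulLeftMono Quantale.instMulRightMono FiniteDimensional.rclike_to_real IsScalarTower.complexToReal FiniteDimensional.complexToReal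

set_option linter.all false
set_option autoImplicit false

open Finset Vale.Agent.P054K Vale.Agent.P054G

/-! P054, the exponent for all sets: the local lemma with both kinds of flats, unconditional. -/

namespace Vale.Agent.P054I

theorem robACount_ex (d : ℕ) : ∃ (K : ℝ) (c : ℕ), 1 ≤ K ∧ RobACount d K c := by
  obtain ⟨K, c, hK, h⟩ := robA_count d
  refine ⟨K, c, hK, ?_⟩
  intro X r l ρ N h2 hrd hl h3 h4 hN
  exact h X r ρ l N h2 hrd (fun U hU => ⟨(hN U hU).1, (hN U hU).2⟩) hl h3 h4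

/-- **the local lemma** -/
theorem localB3_ex (d : ℕ) (hd : 2 ≤ d) : ∃ (C : ℝ) (c : ℕ), 1 ≤ C ∧ LocalB3 d C c := by
  obtain ⟨K, c, hK, h⟩ := robACount_ex d
  refine ⟨12 * d * K ^ 3 * 2 ^ (3 * d * (d + 3)), 3 * c, ?_, localB3 d hd K c hK h⟩
  have h1 : (1:ℝ) ≤ d := by exact_mod_cast (by omega : 1 ≤ d)
  have h2 : (1:ℝ) ≤ K ^ 3 := one_le_pow₀ hK
  have h3 : (1:ℝ) ≤ 2 ^ (3 * d * (d + 3)) := one_le_pow₀ (by norm_num)
  calc (1:ℝ) = 1 * 1 * 1 := by norm_num
    _ ≤ 12 * d * K ^ 3 * 2 ^ (3 * d * (d + 3)) := by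
      apply mul_le_mul (mul_le_mul (by linarith) h2 (by norm_num) (by positivity)) h3
        (by norm_num) (by positivity)

end Vale.Agent.P054I
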