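import Vale.Agent.P054.MathlibUsed
import Vale.Agent.P054.H449.IM.Defs
import Vale.Agent.P054.R2.H524.Count
attribute [-instance] ProperSMul.toContinuousSMul IsTopologicalTorsor.toContinuousSMul IdemSemiring.toCanonicallyOrderedAdd IdemSemiring.toMulLeftMono IdemSemiring.toMulRightMono AddQuantale.instAddLeftMono AddQuantale.instAddRightMono Quantale.instMulLeftMono Quantale.instMulRightMono FiniteDimensional.rclike_to_real IsScalarTower.complexToReal FiniteDimensional.complexToReal

set_option linter.all false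
set_option autoImplicit false

open Finset Vale.Agent.P054K

/-! P054, the exponent for all sets: the local lemma with flats of codimension two. -/

namespace Vale.Agent.P054I

open Vale.Agent.P054G

/-- few mirrors give a bad centre -/
theorem bad_of_fewM {d : ℕ} (X : Finset (EuclideanSpace ℝ (Fin d))) (k : ℝ)
    (p : EuclideanSpace ℝ (Fin d)) (h : FewM X ((X.card : ℝ) / 8) k p) : Bad X k p := by
  classical
  obtain ⟨Y, V, hYX, hXY, himg, hVk, hV0, hpair⟩ := h
  set H : Finset (Submodule ℝ (EuclideanSpace ℝ (Fin d) × ℝ)) :=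
    V.image (fun v => Submodule.span ℝ {(v, 2 * inner ℝ p v)}) with hH
  have hHp : ∀ ℓ ∈ H, ℓ ≤ hyp p := by
    intro ℓ hℓ
    rw [hH, mem_image] at hℓ
    obtain ⟨v, _, rfl⟩ := hℓ
    rw [Submodule.span_singleton_le_iff_mem, mem_hyp]
  have hdl : ∀ y ∈ Y, ∀ y' ∈ Y, y ≠ y' → dist p y = dist p y' → dl y y' ∈ H := by
    intro y hy y' hy' hne hd
    obtain ⟨v, hv, hvs⟩ := hpair y hy y' hy' hne hd
    rw [Submodule.mem_span_singleton] at hvs
    obtain ⟨c, hc⟩ := hvs
    have hc0 : c ≠ 0 := by
      intro h0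
      rw [h0, zero_smul] at hc
      exact hne (sub_eq_zero.mp hc.symm)
    have h1 : dualVec (y, y') ∈ hyp p := (dualVec_mem_hyp p (y, y')).mpr hd
    have h2 : dualVec (y, y') = c • (v, 2 * inner ℝ p v) := by
      unfold dualVec at h1 ⊢
      simp only at h1 ⊢
      rw [mem_hyp] at h1
      rw [← h1, ← hc, Prod.smul_mk, inner_smul_right, smul_eq_mul]
      congr 1
      ring
    rw [hH, mem_image]
    refine ⟨v, hv, ?_⟩
    unfold dl
    rw [h2]
    exact (Submodule.span_singleton_smul_eq (isUnit_iff_ne_zero.mpr hc0) _).symm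
  -- the points in large classes
  set Y' := Y.filter (fun a => 3 ≤ (Y.filter (fun b => dist p b = dist p a)).card) with hY'
  have hgood : Y' ⊆ good X H := by
    intro a ha
    rw [hY', mem_filter] at ha
    obtain ⟨haY, hac⟩ := ha
    have h1 : 1 < ((Y.filter (fun b => dist p b = dist p a)).erase a).card := by
      have h0 : a ∈ Y.filter (fun b => dist p b = dist p a) := mem_filter.mpr ⟨haY, rfl⟩
      rw [card_erase_of_mem h0]
      omega
    obtain ⟨b, hb, c, hc, hbc⟩ := one_lt_card.mp h1
    rw [mem_erase, mem_filter] at hb hc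
    unfold good
    rw [mem_filter]
    exact ⟨hYX haY, b, hYX hb.2.1, c, hYX hc.2.1, hb.1.symm, hbc, hc.1,
      hdl a haY b hb.2.1 hb.1.symm hb.2.2.symm,
      hdl b hb.2.1 c hc.2.1 hbc (hb.2.2.trans hc.2.2.symm),
      hdl c hc.2.1 a haY hc.1 hc.2.2⟩
  have hsmall : (Y.filter (fun a => ¬ 3 ≤ (Y.filter (fun b => dist p b = dist p a)).card)).card ≤
      2 * (Y.image (dist p)).card := by
    set S := Y.filter (fun a => ¬ 3 ≤ (Y.filter (fun b => dist p b = dist p a)).card) with hS
    have h1 : S.card ≤ 2 * (S.image (dist p)).card := by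
      apply card_le_mul_card_image
      intro c hc
      rw [mem_image] at hc
      obtain ⟨a, ha, rfl⟩ := hc
      rw [hS, mem_filter] at ha
      have h2 : (S.filter (fun x => dist p x = dist p a)).card ≤
          (Y.filter (fun b => dist p b = dist p a)).card := by
        apply card_le_card
        intro x hx
        rw [mem_filter] at hx ⊢
        exact ⟨(mem_filter.mp hx.1).1, hx.2⟩
      have := ha.2
      omega
    refine h1.trans (Nat.mul_le_mul_left 2 (card_le_card (image_subset_image ?_)))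
    exact filter_subset _ _
  have hsplit : Y.card = Y'.card +
      (Y.filter (fun a => ¬ 3 ≤ (Y.filter (fun b => dist p b = dist p a)).card)).card := by
    rw [hY']
    exact (card_filter_add_card_filter_not _).symm
  have hX : X.card = (X \ Y).card + Y.card := (card_sdiff_add_card_eq_card hYX).symm
  refine ⟨H, ?_, hHp, ?_⟩
  · refine le_trans ?_ hVk
    exact_mod_cast card_image_le
  · have h1 : (Y'.card : ℝ) ≤ (good X H).card := by exact_mod_cast card_le_card hgood
    have h2 : ((Y.filter (fun a => ¬ 3 ≤ (Y.filter (fun b => dist p b = dist p a)).card)).card : ℝ) ≤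
        2 * (Y.image (dist p)).card := by exact_mod_cast hsmall
    have h3 : (Y.card : ℝ) = Y'.card +
      (Y.filter (fun a => ¬ 3 ≤ (Y.filter (fun b => dist p b = dist p a)).card)).card := by
      exact_mod_cast hsplit
    have h4 : (X.card : ℝ) = (X \ Y).card + Y.card := by exact_mod_cast hX
    linarith

/-- the local lemma, with flats of codimension two (`D ≤ hyp p`, `D` of dimension two) -/
def LocalG2 (d : ℕ) (C : ℝ) (E : ℕ) : Prop :=
  open scoped Classical in
  ∀ (X P : Finset (EuclideanSpace ℝ (Fin d))) (k M : ℝ), 1 ≤ k → C * k ^ 3 ≤ X.card → 0 ≤ M →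
    (∀ p ∈ P, FewM X ((X.card : ℝ) / 8) k p) →
    (∀ D : Submodule ℝ (EuclideanSpace ℝ (Fin d) × ℝ), Module.finrank ℝ D = 2 →
      ((P.filter (fun p => D ≤ hyp p)).card : ℝ) ≤ M) →
    (P.card : ℝ) ≤ C * k ^ E * M

theorem localG2 (d : ℕ) (hd : 3 ≤ d) :
    LocalG2 d (12 * d * 2 ^ ((d + 4) * (3 * (d - 1)))) (9 * (d - 1)) := by
  classical
  intro X P k M hk hX hM hP hD
  have hk0 : 0 < k := by linarith
  have hk3 : 0 < k ^ 3 := by positivity
  have hbig : (2:ℝ) ^ (d + 3) < 12 * d * 2 ^ ((d + 4) * (3 * (d - 1))) := by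
    have h1 : (2:ℝ) ^ (d + 3) ≤ 2 ^ ((d + 4) * (3 * (d - 1))) := by
      apply pow_le_pow_right₀ (by norm_num)
      have : 1 ≤ 3 * (d - 1) := by omega
      nlinarith
    have h2 : (3:ℝ) ≤ d := by exact_mod_cast hd
    have h3 : (0:ℝ) < 2 ^ ((d + 4) * (3 * (d - 1))) := by positivity
    nlinarith
  have h1 := bad_count hd P X k M hk (lt_of_lt_of_le (mul_lt_mul_of_pos_right hbig hk3) hX) hM hD
  rw [filter_true_of_mem (fun p hp => bad_of_fewM X k p (hP p hp))] at h1
  refine h1.trans (le_of_eq ?_)
  rw [mul_pow, ← pow_mul, ← pow_mul]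
  have : 3 * (3 * (d - 1)) = 9 * (d - 1) := by ring
  rw [this]
  ring

end Vale.Agent.P054I
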